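import Vale.Agent.P113.H281.Final
import Vale.Agent.P113.H982.Smooth

/-!
# P113, Q1: halting detection by particle trajectories of forced Navier-Stokes flows from rest

For every real `ν > 0` (with one point, one box and one compiler for all `ν`).
-/

namespace Vale.Agent.Results.P113.AHaltingDetection

open Vale.Agent.P113
open scoped ContDiff

/-- There are a rational point `a` of the torus, an open box with rational corners `lo < hi` and a
force compiler `C` (with its time `T₀`) such that, for every viscosity `ν > 0`, every machine `M`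
and every input `w`: the force `C (M, w)` is a smooth force on the torus, the Navier-Stokes
equations on `𝕋³` with this force and zero initial velocity have a global smooth solution, unique
among the classical solutions on each `[0, T]`, and the trajectory of `a` lies in the box at some
time `t ≥ 0` if and only if `M` halts on `w`. -/
theorem result :
    ∃ (a lo hi : Fin 3 → ℚ) (C : Machine × List ℕ → Fin 3 → List Term) (T₀ : ℝ),
      (∀ i, lo i < hi i) ∧ IsForceCompiler C T₀ ∧
      ∀ ν : ℝ, 0 < ν → ∀ (M : Machine) (w : List ℕ),
        ContDiff ℝ ∞ (fun y : ℝ × (Fin 3 → ℝ) => force ν (C (M, w)) y.1 y.2) ∧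
        (∀ t, IsPeriodic (force ν (C (M, w)) t)) ∧
        ∃ (u : ℝ → (Fin 3 → ℝ) → (Fin 3 → ℝ)) (p : ℝ → (Fin 3 → ℝ) → ℝ),
          IsUniqueSmoothSolution ν (force ν (C (M, w))) u p ∧
          (∃ X, IsTrajectory u (fun i => a i) X) ∧
          ∀ X, IsTrajectory u (fun i => a i) X →
            ((∃ t : ℝ, 0 ≤ t ∧ InBox lo hi (X t)) ↔ M.HaltsOn w) := by
  obtain ⟨a, lo, hi, C, T₀, h1, h2, h3⟩ := H281.statement
  exact ⟨a, lo, hi, C, T₀, h1, h2, fun ν hν M w =>
    ⟨H982.force_contDiff ν _ fun i τ hτ => h2.valid (M, w) i τ hτ,
      fun t => H982.force_periodic ν _ t, h3 ν hν M w⟩⟩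

end Vale.Agent.Results.P113.AHaltingDetection
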